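import Mathlib

/-!
Norms on algebraic extensions of local fields.
-/

set_option autoImplicit false
set_option linter.all false

namespace Vale.Agent.P011IN

/-- the norm on the algebraic closure -/
theorem nrm0 (F : Type) [NontriviallyNormedField F] [ProperSpace F] [IsUltrametricDist F] :
    ∃ (Ω : Type) (_ : NontriviallyNormedField Ω) (_ : NormedAlgebra F Ω),
      IsAlgClosed Ω ∧ Algebra.IsAlgebraic F Ω ∧ IsUltrametricDist Ω := by
  letI := spectralNorm.nontriviallyNormedField F (AlgebraicClosure F)
  letI : NormedAlgebra F (AlgebraicClosure F) := spectralNorm.normedAlgebra F (AlgebraicClosure F)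
  refine ⟨AlgebraicClosure F, inferInstance, inferInstance, inferInstance, inferInstance, ?_⟩
  exact IsUltrametricDist.isUltrametricDist_of_isNonarchimedean_norm
    (isNonarchimedean_spectralNorm (K := F) (L := AlgebraicClosure F))

section

variable {F Ω : Type} [NontriviallyNormedField F] [NontriviallyNormedField Ω] [NormedAlgebra F Ω]

/-- an intermediate field as a normed algebra over the base -/
@[reducible] noncomputable def naBot (L : IntermediateField F Ω) : NormedAlgebra F L :=
  { (inferInstance : Algebra F L) with
    norm_smul_le := fun r x => norm_smul_le r (x : Ω) }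

/-- the top field as a normed algebra over an intermediate field -/
@[reducible] noncomputable def naTop (L : IntermediateField F Ω) : NormedAlgebra L Ω :=
  { (inferInstance : Algebra L Ω) with
    norm_smul_le := fun r x => (norm_mul (r : Ω) x).le }

end

/-- finite extensions of a local field inside the algebraic closure -/
theorem ext0 (F Ω : Type) [NontriviallyNormedField F] [ProperSpace F] [IsUltrametricDist F]
    [NontriviallyNormedField Ω] [NormedAlgebra F Ω] [IsUltrametricDist Ω] [Algebra.IsAlgebraic F Ω]
    (s : Finset Ω) : ∃ (L : Type) (_ : NontriviallyNormedField L) (_ : ProperSpace L)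
    (_ : IsUltrametricDist L) (_ : NormedAlgebra F L) (_ : NormedAlgebra L Ω)
    (_ : IsScalarTower F L Ω), Algebra.IsAlgebraic L Ω ∧ FiniteDimensional F L ∧
      (∀ x ∈ s, ∃ z : L, algebraMap L Ω z = x) ∧
      ((∀ x ∈ s, IsSeparable F x) → Algebra.IsSeparable F L) := by
  let L : IntermediateField F Ω := IntermediateField.adjoin F (s : Set Ω)
  have hf : FiniteDimensional F L := IntermediateField.finiteDimensional_adjoin fun x _ =>
    (Algebra.IsAlgebraic.isAlgebraic x).isIntegral
  letI := naBot L
  letI := naTop L
  have hp : ProperSpace L := FiniteDimensional.proper F L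
  have hu : IsUltrametricDist L := ⟨fun x y z => IsUltrametricDist.dist_triangle_max (x : Ω) y z⟩
  refine ⟨L, inferInstance, hp, hu, inferInstance, inferInstance, inferInstance,
    Algebra.IsAlgebraic.tower_top (K := F) L, hf,
    fun x hx => ⟨⟨x, IntermediateField.subset_adjoin F _ hx⟩, rfl⟩, fun h => ?_⟩
  exact (IntermediateField.isSeparable_adjoin_iff_isSeparable F Ω).2 h

end Vale.Agent.P011IN
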