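import Vale.Agent.P011I.IF
import Vale.Agent.P011IN.Core

/-!
The rows on norms.
-/

set_option autoImplicit false
set_option linter.all false

namespace Vale.Agent.P011IN

theorem nrm : P011I.NRM := fun F _ _ _ => nrm0 F

theorem ext : P011I.EXT := fun F Ω _ _ _ _ _ _ _ s => ext0 F Ω s

end Vale.Agent.P011IN
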